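import Vale.Agent.P176R38.Defs
import Vale.Agent.P176.Statement

/-!
# P176: resolutions and vanishing of `Ext`
-/

namespace Vale.Agent.P176R38

open CategoryTheory Function

universe u

variable {A : Type u} [Ring A]

theorem hasRes_zero (N : ModuleCat.{u} A) : HasRes N 0 ↔ Module.Projective A N := by
  constructor
  · rintro ⟨P, d, e, hP, h0, hs, h1, -⟩
    have := h0 1 one_pos
    have := hP 0
    refine .of_equiv (LinearEquiv.ofBijective e ⟨(injective_iff_map_eq_zero e).2 fun x hx => ?_, hs⟩)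
    obtain ⟨y, rfl⟩ := (h1 x).1 hx
    rw [Subsingleton.elim y 0, map_zero]
  · intro h
    refine ⟨fun i => Nat.casesOn i N fun _ => ModuleCat.of A PUnit, fun _ => 0, LinearMap.id,
      fun i => ?_, fun i hi => ?_, surjective_id, fun x => ⟨fun h => ⟨0, h.symm⟩, ?_⟩,
      fun i x => ⟨fun _ => ⟨0, @Subsingleton.elim PUnit.{u + 1} _ _ _⟩, fun _ => rfl⟩⟩
    · cases i with
      | zero => exact h
      | succ i => exact inferInstanceAs (Module.Projective A PUnit.{u + 1})
    · cases i with
      | zero => omega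
      | succ i => exact inferInstanceAs (Subsingleton PUnit.{u + 1})
    · rintro ⟨y, rfl⟩
      rfl

theorem hasRes_succ (N : ModuleCat.{u} A) (n : ℕ) : HasRes N (n + 1) ↔
    ∃ (Q : ModuleCat.{u} A) (e : Q →ₗ[A] N), Module.Projective A Q ∧ Surjective e ∧
      HasRes (ModuleCat.of A (LinearMap.ker e)) n := by
  constructor
  · rintro ⟨P, d, e, hP, h0, hs, h1, h2⟩
    refine ⟨P 0, e, hP 0, hs, fun i => P (i + 1), fun i => d (i + 1),
      (d 0).codRestrict _ fun x => (h1 _).2 ⟨x, rfl⟩, fun i => hP _,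
      fun i hi => h0 _ (by omega), fun x => ?_, fun x => ?_, fun i => h2 _⟩
    · obtain ⟨y, hy⟩ := (h1 x.1).1 x.2
      exact ⟨y, Subtype.ext hy⟩
    · exact Subtype.ext_iff.trans (h2 0 x)
  · rintro ⟨Q, e, hQ, hs, P, d, e', hP, h0, hs', h1, h2⟩
    refine ⟨fun i => Nat.casesOn i Q P,
      fun i => Nat.casesOn (motive := fun i => P i →ₗ[A] (Nat.casesOn i Q P : ModuleCat.{u} A)) i
        ((LinearMap.ker e).subtype ∘ₗ e') d, e, fun i => ?_, fun i hi => ?_, hs,
      fun x => ⟨fun hx => ?_, ?_⟩, fun i => ?_⟩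
    · cases i with
      | zero => exact hQ
      | succ i => exact hP i
    · cases i with
      | zero => omega
      | succ i => exact h0 i (by omega)
    · obtain ⟨y, hy⟩ := hs' ⟨x, hx⟩
      exact ⟨y, congrArg Subtype.val hy⟩
    · rintro ⟨y, rfl⟩
      exact (e' y).2
    · cases i with
      | zero => exact fun x => (Subtype.ext_iff (a1 := e' x) (a2 := 0)).symm.trans (h1 x)
      | succ i => exact h2 i

theorem hasRes_iff (n : ℕ) : ∀ N : ModuleCat.{u} A,
    HasRes N n ↔ HasProjectiveDimensionLT N (n + 1) := by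
  induction n with
  | zero =>
    intro N
    rw [hasRes_zero, ← projective_iff_hasProjectiveDimensionLT_one, IsProjective.iff_projective]
  | succ n ih =>
    intro N
    have key : ∀ (Q : ModuleCat.{u} A) (e : Q →ₗ[A] N), Module.Projective A Q → Surjective e →
        (HasProjectiveDimensionLT N (n + 2) ↔ HasRes (ModuleCat.of A (LinearMap.ker e)) n) :=
      fun Q e hQ hs => ((LinearMap.shortExact_shortComplexKer hs).hasProjectiveDimensionLT_X₃_iff n
        ((IsProjective.iff_projective Q).1 hQ)).trans (ih _).symm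
    rw [hasRes_succ]
    refine ⟨fun ⟨Q, e, hQ, hs, h⟩ => (key Q e hQ hs).2 h, fun h => ?_⟩
    have hs : Surjective (Finsupp.linearCombination A (id : N → N)) :=
      Finsupp.linearCombination_id_surjective A N
    have hQ : Module.Projective A (ModuleCat.of A (N →₀ A)) :=
      inferInstanceAs (Module.Projective A (N →₀ A))
    exact ⟨_, _, hQ, hs, (key _ _ hQ hs).1 h⟩

theorem hasRes_iff' (N : ModuleCat.{u} A) (n : ℕ) : HasRes N n ↔ projectiveDimension N ≤ n :=
  (hasRes_iff n N).trans (projectiveDimension_le_iff N n).symm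

theorem pd_le (N : ModuleCat.{u} A) (n : ℕ) : pd N ≤ n ↔ HasRes N n := by
  refine ⟨fun h => ?_, fun h => iInf₂_le n h⟩
  have h1 : pd N < (n + 1 : ℕ) := h.trans_lt (by exact_mod_cast n.lt_succ_self)
  obtain ⟨m, h2⟩ := iInf_lt_iff.1 h1
  obtain ⟨hm, h3⟩ := iInf_lt_iff.1 h2
  have h4 : m ≤ n := Nat.lt_succ_iff.1 (by exact_mod_cast h3)
  exact (hasRes_iff' N n).2 (((hasRes_iff' N m).1 hm).trans (by exact_mod_cast h4))

theorem pd_eq (N : ModuleCat.{u} A) : (pd N : WithBot ℕ∞) = max (projectiveDimension N) 0 := by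
  have h : ∀ n : ℕ, (pd N : WithBot ℕ∞) ≤ n ↔ max (projectiveDimension N) 0 ≤ n := fun n => by
    rw [max_le_iff, and_iff_left (Nat.cast_nonneg n), ← hasRes_iff', ← pd_le]
    exact WithBot.coe_le_coe
  refine le_antisymm ?_ ?_
  · generalize hx : max (projectiveDimension N) 0 = x at h
    induction x with
    | bot => exact absurd (hx ▸ le_max_right _ _) (by simp)
    | coe x =>
      induction x with
      | top => exact le_top
      | coe x => exact (h x).2 le_rfl
  · generalize pd N = x at h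
    induction x with
    | top => exact le_top
    | coe x => exact (h x).1 le_rfl

theorem findim_top (h : P176.findim A = ⊤) : findim A = ⊤ := by
  by_contra h1
  obtain ⟨n, hn⟩ := ENat.ne_top_iff_exists.1 h1
  have h2 : P176.findim A ≤ n := iSup₂_le fun N hN => iSup_le fun h3 => by
    obtain ⟨m, hm⟩ := (projectiveDimension_ne_top_iff N).1 h3
    have h4 : pd N < ⊤ := ((pd_le N m).2 ((hasRes_iff m N).2 hm)).trans_lt (ENat.natCast_lt_top m)
    exact (hasRes_iff' N n).1 ((pd_le N n).1 (hn ▸ le_iSup₂_of_le N hN (le_iSup_of_le h4 le_rfl)))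
  rw [h, top_le_iff] at h2
  exact ENat.natCast_ne_top n (WithBot.coe_eq_coe.1 h2)

theorem findim_le : findim A ≤ Findim A :=
  iSup₂_le fun N _ => iSup_le fun h => le_iSup₂_of_le N h le_rfl

end Vale.Agent.P176R38
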