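import Mathlib

/-!
# P176: projective dimension by resolutions, finitistic dimensions
-/

namespace Vale.Agent.P176R38

universe u

variable {A : Type u} [Ring A]

/-- `N` has a projective resolution of length at most `n`: an exact sequence
`⋯ → P 2 → P 1 → P 0 → N → 0` of left `A`-modules, all `P i` projective, `P i = 0` for `i > n`. -/
def HasRes (N : ModuleCat.{u} A) (n : ℕ) : Prop :=
  ∃ (P : ℕ → ModuleCat.{u} A) (d : ∀ i, P (i + 1) →ₗ[A] P i) (e : P 0 →ₗ[A] N),
    (∀ i, Module.Projective A (P i)) ∧ (∀ i, n < i → Subsingleton (P i)) ∧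
      Function.Surjective e ∧ Function.Exact (d 0) e ∧ ∀ i, Function.Exact (d (i + 1)) (d i)

/-- `pd N`: the minimal length of a projective resolution of `N` (`⊤` if none is finite). -/
noncomputable def pd (N : ModuleCat.{u} A) : ℕ∞ := ⨅ (n : ℕ) (_ : HasRes N n), n

variable (A) in
/-- The little finitistic dimension. -/
noncomputable def findim : ℕ∞ :=
  ⨆ (N : ModuleCat.{u} A) (_ : Module.Finite A N) (_ : pd N < ⊤), pd N

variable (A) in
/-- The big finitistic dimension. -/
noncomputable def Findim : ℕ∞ := ⨆ (N : ModuleCat.{u} A) (_ : pd N < ⊤), pd N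

end Vale.Agent.P176R38
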